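import Vale.Agent.P267.H188.Cover
import Vale.Agent.P267.H466.LBNF
import Vale.Agent.P267.H338.Iface

/-!
# P267 / ROUTE S, ROOT (helper188): `m`-th roots of an exact function, holomorphic frames

`(L, a)` a holomorphic line bundle with a holomorphic section `α`; near every point of the open set
`W` one has `A = u · (cof f α)^m · B` with a local holomorphic frame `f` and `u` holomorphic, `u ≠ 0`.
`Rt q v`: there is a holomorphic frame `f` near `q` with `f q = v` and `A = (cof f α)^m · B`.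
-/

set_option linter.unusedSectionVars false
set_option linter.unusedVariables false

open scoped Manifold ContDiff ComplexConjugate Matrix Topology
open Set Filter

noncomputable section

namespace Vale.Agent.P267.H188

open Vale.Agent.P267.FL Vale.Agent.P267.H466 Vale.Agent.P267.H338

variable {X : Type} [TopologicalSpace X] [ChartedSpace C2 X] [IsManifold 𝓘(ℂ, C2) ω X]

/-! ### holomorphic functions -/

theorem holAt_comp {s : X → ℂ} {x : X} (h : HolAt 0 s x) {g : ℂ → ℂ}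
    (hg : AnalyticAt ℂ g (s x)) : HolAt 0 (fun y => g (s y)) x := by
  unfold HolAt at h ⊢
  rw [LB.loc0_zero] at h ⊢
  have h1 : (s ∘ (chartAt C2 x).symm) (chartAt C2 x x) = s x := by
    simp only [Function.comp_apply]
    rw [(chartAt C2 x).left_inv (mem_chart_source C2 x)]
  have h2 : AnalyticAt ℂ (g ∘ (s ∘ (chartAt C2 x).symm)) (chartAt C2 x x) :=
    AnalyticAt.comp_of_eq hg h h1
  exact h2

theorem holAt_mul {s t : X → ℂ} {x : X} (h : HolAt 0 s x) (h' : HolAt 0 t x) :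
    HolAt 0 (fun y => s y * t y) x := by
  unfold HolAt at h h' ⊢
  rw [LB.loc0_zero] at h h' ⊢
  exact h.mul h'

theorem holAt_const' (c : ℂ) (x : X) : HolAt 0 (fun _ : X => c) x := by
  unfold HolAt
  rw [LB.loc0_zero]
  exact analyticAt_const

theorem holAt_cont {s : X → ℂ} {x : X} (h : HolAt 0 s x) :
    ContinuousAt s x :=
  (h.at0 (n := 1)).continuousAt

/-- local `m`-th root of a holomorphic function without zeros -/
theorem exists_local_root {u : X → ℂ} {p : X} (hu : HolAt 0 u p) (h0 : u p ≠ 0) {m : ℕ}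
    (hm : 0 < m) : ∃ w : X → ℂ, HolAt 0 w p ∧ w p ≠ 0 ∧ ∀ᶠ y in 𝓝 p, w y ^ m = u y := by
  obtain ⟨c, hc⟩ := IsAlgClosed.exists_pow_nat_eq (u p) hm
  have hc0 : c ≠ 0 := by
    rintro rfl
    rw [zero_pow hm.ne'] at hc
    exact h0 hc.symm
  have hm' : (m : ℂ) ≠ 0 := by exact_mod_cast hm.ne'
  have han : AnalyticAt ℂ (fun t : ℂ => c * Complex.exp (Complex.log (t / u p) / m)) (u p) := by
    have h1 : AnalyticAt ℂ (fun t : ℂ => t / u p) (u p) := analyticAt_id.div analyticAt_const h0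
    have h2 : AnalyticAt ℂ (fun t : ℂ => Complex.log (t / u p)) (u p) :=
      h1.clog (by rw [div_self h0]; exact Complex.one_mem_slitPlane)
    exact analyticAt_const.mul ((h2.div analyticAt_const hm').cexp)
  refine ⟨fun y => c * Complex.exp (Complex.log (u y / u p) / m), holAt_comp hu han, ?_, ?_⟩
  · exact mul_ne_zero hc0 (Complex.exp_ne_zero _)
  · filter_upwards [(holAt_cont hu).eventually_ne h0] with y hy
    rw [mul_pow, hc, ← Complex.exp_nat_mul, mul_div_cancel₀ _ hm',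
      Complex.exp_log (div_ne_zero hy h0), mul_div_cancel₀ _ h0]

variable {ι : Type} [Fintype ι] [DecidableEq ι] {L : LB X ι} {a : X → Fin 2 → ℂ}

/-- `f` is a holomorphic frame of `(L, a)` near `p` -/
def FrameAt (L : LB X ι) (a : X → Fin 2 → ℂ) (f : X → EuclideanSpace ℂ ι) (p : X) : Prop :=
  ∀ᶠ y in 𝓝 p, At0 ∞ 0 f y ∧ LB.act (L.P y) (f y) = f y ∧ f y ≠ 0 ∧ L.db0 a 0 f y = 0

theorem FrameAt.ne {f : X → EuclideanSpace ℂ ι} {p : X} (h : FrameAt L a f p) : f p ≠ 0 :=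
  h.self_of_nhds.2.2.1

theorem FrameAt.eventually {f : X → EuclideanSpace ℂ ι} {p : X} (h : FrameAt L a f p) :
    ∀ᶠ q in 𝓝 p, FrameAt L a f q := h.eventually_nhds

theorem FrameAt.congr {f g : X → EuclideanSpace ℂ ι} {p : X} (h : FrameAt L a f p)
    (hfg : g =ᶠ[𝓝 p] f) : FrameAt L a g p := by
  filter_upwards [h, hfg.eventually_nhds] with y hy hy'
  refine ⟨hy.1.congr hy', ?_, ?_, ?_⟩
  · rw [hy'.self_of_nhds]; exact hy.2.1
  · rw [hy'.self_of_nhds]; exact hy.2.2.1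
  · rw [LB.db0_congr hy']; exact hy.2.2.2

theorem FrameAt.smul {f : X → EuclideanSpace ℂ ι} {p : X} (h : FrameAt L a f p) {c : X → ℂ}
    (hc : HolAt 0 c p) (h0 : c p ≠ 0) : FrameAt L a (fun y => c y • f y) p := by
  filter_upwards [h, hc.eventually, (holAt_cont hc).eventually_ne h0] with y hy hcy hy0
  refine ⟨hcy.at0.smul hy.1, ?_, smul_ne_zero hy0 hy.2.2.1, ?_⟩
  · rw [LB.act_smul, hy.2.1]
  · funext i
    rw [LB.db0_smul (hcy.at0) (hy.1.of_le (by simp)) hy.2.1, hcy.dbar0, hy.2.2.2]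
    simp

theorem frameAt_of_eventually {f : X → EuclideanSpace ℂ ι} {p : X} (hf : Reg0 ∞ 0 f)
    (hs : L.Sec f) (h : ∀ᶠ y in 𝓝 p, f y ≠ 0 ∧ L.db0 a 0 f y = 0) : FrameAt L a f p := by
  filter_upwards [h] with y hy
  exact ⟨hf.at y, hs y, hy.1, hy.2⟩

/-- the coefficient is determined by the equation -/
theorem cof_eq {f s : X → EuclideanSpace ℂ ι} {y : X} {c : ℂ} (h0 : f y ≠ 0)
    (h : s y = c • f y) : cof f s y = c := by
  unfold cof
  rw [h, hp_smul, mul_div_assoc, div_self (hp_self_ne h0), mul_one]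

/-- the coefficient of a holomorphic section in a holomorphic frame is holomorphic (local form) -/
theorem FrameAt.cof_holAt {f s : X → EuclideanSpace ℂ ι} {p : X} (hf : FrameAt L a f p)
    (hs : ∀ᶠ y in 𝓝 p, At0 ∞ 0 s y ∧ LB.act (L.P y) (s y) = s y ∧ L.db0 a 0 s y = 0) :
    HolAt 0 (cof f s) p := by
  have h2 : ∀ᶠ y in 𝓝 p, At0 ∞ 0 (cof f s) y := by
    filter_upwards [hf, hs] with y hy hsy
    have e1 := at0_hp hy.1 hsy.1
    have e2 := at0_hp hy.1 hy.1
    have e3 := e1.mul (e2.inv0 (hp_self_ne hy.2.2.1))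
    refine (by simpa using e3 : At0 ∞ 0 (fun y => hp (f y) (s y) * (hp (f y) (f y))⁻¹) y).congr ?_
    exact Eventually.of_forall fun z => div_eq_mul_inv _ _
  refine holAt_of_dbar0 ?_
  filter_upwards [hf.eventually_nhds, hs.eventually_nhds, h2] with y hy hsy hc
  refine ⟨hc.of_le (by simp), ?_⟩
  funext i
  have e1 : s =ᶠ[𝓝 y] fun z => cof f s z • f z := by
    filter_upwards [hy, hsy] with z hz hsz using cof_spec hz.2.1 hsz.2.1 hz.2.2.1
  have e2 := LB.db0_congr (L := L) (a := a) (κ := 0) e1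
  have hy' := hy.self_of_nhds
  rw [hsy.self_of_nhds.2.2] at e2
  have e3 := LB.db0_smul (L := L) (a := a) (hc.of_le (by simp)) (hy'.1.of_le (by simp)) hy'.2.1 i
  have e4 := congrFun e2 i
  rw [e3, congrFun hy'.2.2.2 i] at e4
  simp only [Pi.zero_apply, smul_zero, add_zero] at e4
  exact (smul_eq_zero.1 e4.symm).resolve_right hy'.2.2.1

/-- two frames differ by a holomorphic function without zeros -/
theorem FrameAt.cof_frame {f g : X → EuclideanSpace ℂ ι} {p : X} (hf : FrameAt L a f p)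
    (hg : FrameAt L a g p) : HolAt 0 (cof f g) p ∧ ∀ᶠ y in 𝓝 p, g y = cof f g y • f y ∧
      cof f g y ≠ 0 := by
  refine ⟨hf.cof_holAt (by filter_upwards [hg] with y hy using ⟨hy.1, hy.2.1, hy.2.2.2⟩), ?_⟩
  filter_upwards [hf, hg] with y hy hgy
  have h1 : g y = cof f g y • f y := cof_spec hy.2.1 hgy.2.1 hy.2.2.1
  refine ⟨h1, fun h0 => hgy.2.2.1 ?_⟩
  rw [h1, h0, zero_smul]

/-! ### the covering of roots -/

/-- `v` is the value at `q` of a holomorphic frame `f` with `A = (cof f α)^m · B` near `q` -/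
def Rt (L : LB X ι) (a : X → Fin 2 → ℂ) (α : X → EuclideanSpace ℂ ι) (A B : X → ℂ) (m : ℕ)
    (q : X) (v : EuclideanSpace ℂ ι) : Prop :=
  ∃ f : X → EuclideanSpace ℂ ι, FrameAt L a f q ∧ f q = v ∧
    ∀ᶠ y in 𝓝 q, A y = cof f α y ^ m * B y

variable {α : X → EuclideanSpace ℂ ι} {A B : X → ℂ} {m : ℕ} {W : Set X}

/-- the hypotheses on `A`, `B`, `α` over `W` -/
structure RootData (L : LB X ι) (a : X → Fin 2 → ℂ) (α : X → EuclideanSpace ℂ ι) (A B : X → ℂ)
    (m : ℕ) (W : Set X) : Prop where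
  open_W : IsOpen W
  pos : 0 < m
  sec : ∀ y ∈ W, At0 ∞ 0 α y ∧ LB.act (L.P y) (α y) = α y ∧ L.db0 a 0 α y = 0
  loc : ∀ p ∈ W, ∃ (f : X → EuclideanSpace ℂ ι) (u : X → ℂ), FrameAt L a f p ∧ HolAt 0 u p ∧
    u p ≠ 0 ∧ ∀ᶠ y in 𝓝 p, A y = u y * cof f α y ^ m * B y
  dense : ∀ p ∈ W, ∃ᶠ y in 𝓝 p, α y ≠ 0 ∧ B y ≠ 0

theorem RootData.sec_ev (H : RootData L a α A B m W) {p : X} (hp : p ∈ W) :
    ∀ᶠ y in 𝓝 p, At0 ∞ 0 α y ∧ LB.act (L.P y) (α y) = α y ∧ L.db0 a 0 α y = 0 := by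
  filter_upwards [H.open_W.mem_nhds hp] with y hy using H.sec y hy

theorem cof_smul_left {f s : X → EuclideanSpace ℂ ι} {y : X} {c : ℂ} (hc : c ≠ 0)
    (hf : f y ≠ 0) (h : s y = cof f s y • f y) :
    cof (fun z => c • f z) s y = c⁻¹ * cof f s y := by
  refine cof_eq (smul_ne_zero hc hf) ?_
  rw [smul_smul, mul_comm c⁻¹, mul_assoc, inv_mul_cancel₀ hc, mul_one]
  exact h

/-- local root frames -/
theorem RootData.exists_frame (H : RootData L a α A B m W) {p : X} (hp : p ∈ W) :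
    ∃ g : X → EuclideanSpace ℂ ι, FrameAt L a g p ∧ ∀ᶠ y in 𝓝 p, A y = cof g α y ^ m * B y := by
  obtain ⟨f, u, hf, hu, hu0, hA⟩ := H.loc p hp
  obtain ⟨w, hw, hw0, hwm⟩ := exists_local_root hu hu0 H.pos
  have hwi : HolAt 0 (fun y => (w y)⁻¹) p := holAt_comp hw (analyticAt_inv hw0)
  refine ⟨fun y => (w y)⁻¹ • f y, hf.smul hwi (inv_ne_zero hw0), ?_⟩
  filter_upwards [hf, H.sec_ev hp, hA, hwm, (holAt_cont hw).eventually_ne hw0] with y h1 h2 h3 h4 h5
  have h6 : α y = cof f α y • f y := cof_spec h1.2.1 h2.2.1 h1.2.2.1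
  have h7 : cof (fun z => (w z)⁻¹ • f z) α y = w y * cof f α y := by
    refine cof_eq (smul_ne_zero (inv_ne_zero h5) h1.2.2.1) ?_
    rw [smul_smul, mul_comm (w y), mul_assoc, mul_inv_cancel₀ h5, mul_one]
    exact h6
  rw [h7, mul_pow, h4, h3]

/-- **the roots form a covering of `W`** -/
theorem RootData.rootCov (H : RootData L a α A B m W) : RootCov m (Rt L a α A B m) W := by
  intro p hp
  obtain ⟨g, hg, hA⟩ := H.exists_frame hp
  obtain ⟨U, hU, hUo, hpU⟩ := mem_nhds_iff.1 (hg.and (hA.and (H.open_W.mem_nhds hp)))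
  have hgU : ∀ q ∈ U, FrameAt L a g q := by
    intro q hq
    filter_upwards [hUo.mem_nhds hq] with y hy using (hU hy).1
  have hAU : ∀ q ∈ U, ∀ᶠ y in 𝓝 q, A y = cof g α y ^ m * B y := by
    intro q hq
    filter_upwards [hUo.mem_nhds hq] with y hy using (hU hy).2.1
  refine ⟨U, g, hUo, hpU, fun q hq => ((hU hq).1.1.continuousAt).continuousWithinAt,
    fun q hq => (hU hq).1.2.2.1, fun q hq v => ⟨?_, ?_⟩⟩
  · rintro ⟨f, hf, rfl, hAf⟩
    obtain ⟨hh, hhf⟩ := (hgU q hq).cof_frame hf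
    refine ⟨cof g f q, ?_, hhf.self_of_nhds.1⟩
    by_contra hne
    have h1 : ∀ᶠ y in 𝓝 q, cof g f y ^ m ≠ 1 :=
      ((holAt_cont hh).pow m).eventually_ne hne
    refine (H.dense q (hU hq).2.2) ?_
    filter_upwards [h1, hhf, hAf, hAU q hq, hgU q hq, hf, H.sec_ev (hU hq).2.2] with y e1 e2 e3 e4 e5 e6 e7
    rintro ⟨hα, hB⟩
    have k1 : α y = cof g α y • g y := cof_spec e5.2.1 e7.2.1 e5.2.2.1
    have k2 : α y = cof f α y • f y := cof_spec e6.2.1 e7.2.1 e6.2.2.1
    have k3 : cof g α y = cof f α y * cof g f y := by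
      refine cof_eq e5.2.2.1 ?_
      rw [mul_smul, ← e2.1]
      exact k2
    have k4 : cof f α y ≠ 0 := by
      intro h0
      rw [h0, zero_smul] at k2
      exact hα k2
    have k5 : cof f α y ^ m * B y = cof f α y ^ m * B y * cof g f y ^ m := by
      have k := e3.symm.trans e4
      rw [k3, mul_pow] at k
      linear_combination k
    have k6 : cof f α y ^ m * B y ≠ 0 := mul_ne_zero (pow_ne_zero _ k4) hB
    apply e1
    have k7 : cof f α y ^ m * B y * (cof g f y ^ m - 1) = 0 := by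
      rw [mul_sub, mul_one, ← k5, sub_self]
    exact sub_eq_zero.1 ((mul_eq_zero.1 k7).resolve_left k6)
  · rintro ⟨ζ, hζ, rfl⟩
    have hζ0 := mu_ne H.pos hζ
    refine ⟨fun y => ζ • g y, (hgU q hq).smul (holAt_const' ζ q) hζ0, rfl, ?_⟩
    filter_upwards [hAU q hq, hgU q hq, H.sec_ev (hU hq).2.2] with y e1 e2 e3
    rw [cof_smul_left hζ0 e2.2.2.1 (cof_spec e2.2.1 e3.2.1 e2.2.2.1), mul_pow, inv_pow, hζ, inv_one,
      one_mul]
    exact e1

/-- a continuous choice of roots is a holomorphic frame -/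
theorem RootData.frameAt (H : RootData L a α A B m W) {N : Set X} (hN : IsOpen N) (hNW : N ⊆ W)
    {l : X → EuclideanSpace ℂ ι} (hl : ContinuousOn l N) (hT : ∀ q ∈ N, Rt L a α A B m q (l q))
    {q : X} (hq : q ∈ N) : FrameAt L a l q ∧ ∀ᶠ y in 𝓝 q, A y = cof l α y ^ m * B y := by
  obtain ⟨f, hf, hfq, hAf⟩ := hT q hq
  obtain ⟨δ, hδ, hsep⟩ := exists_sep H.pos
  -- near `q` the ratio is a root of unity and is near one
  have h1 : ContinuousAt (fun y => rat (l y) (f y)) q := by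
    have c1 : ContinuousAt l q := hl.continuousAt (hN.mem_nhds hq)
    have c2 : ContinuousAt f q := hf.self_of_nhds.1.continuousAt
    exact (c2.inner c1).div (c2.inner c2) (inner_self_ne_zero.2 hf.ne)
  have h2 : rat (l q) (f q) = 1 := by
    rw [← hfq]
    have := rat_smul hf.ne (1 : ℂ)
    rwa [one_smul] at this
  have h3 : ∀ᶠ y in 𝓝 q, ‖rat (l y) (f y) - 1‖ < δ := by
    have h4 : ContinuousAt (fun y => ‖rat (l y) (f y) - 1‖) q := (h1.sub continuousAt_const).norm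
    refine h4.eventually_lt continuousAt_const ?_
    simpa [h2] using hδ
  have h5 : ∀ᶠ y in 𝓝 q, Rt L a α A B m y (f y) := by
    filter_upwards [hf.eventually, hAf.eventually_nhds] with y e1 e2
    exact ⟨f, e1, rfl, e2⟩
  have h6 : l =ᶠ[𝓝 q] f := by
    filter_upwards [h3, h5, hN.mem_nhds hq] with y e1 e2 e3
    obtain ⟨k1, k2⟩ := H.rootCov.rat_mem H.pos (hNW e3) (hT y e3) e2
    rw [hsep _ _ k1 (one_pow m) e1, one_smul] at k2
    exact k2
  refine ⟨hf.congr h6, ?_⟩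
  filter_upwards [hAf, h6] with y e1 e2
  rw [e1]
  unfold cof
  rw [e2]

/-- the output: a holomorphic frame `l` of `(L, a)` over the open set `N` with `A = (cof l α)^m B` -/
structure RootFrame (L : LB X ι) (a : X → Fin 2 → ℂ) (α : X → EuclideanSpace ℂ ι) (A B : X → ℂ)
    (m : ℕ) (N : Set X) (l : X → EuclideanSpace ℂ ι) : Prop where
  open_N : IsOpen N
  frame : ∀ q ∈ N, FrameAt L a l q
  root : ∀ q ∈ N, A q = cof l α q ^ m * B q
  coef : ∀ q ∈ N, α q = cof l α q • l q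
  hol : ∀ q ∈ N, HolAt 0 (cof l α) q

theorem RootData.rootFrame (H : RootData L a α A B m W) {N : Set X} (hN : IsOpen N) (hNW : N ⊆ W)
    {l : X → EuclideanSpace ℂ ι} (hl : ContinuousOn l N) (hT : ∀ q ∈ N, Rt L a α A B m q (l q)) :
    RootFrame L a α A B m N l where
  open_N := hN
  frame q hq := (H.frameAt hN hNW hl hT hq).1
  root q hq := (H.frameAt hN hNW hl hT hq).2.self_of_nhds
  coef q hq := by
    have h1 := (H.frameAt hN hNW hl hT hq).1.self_of_nhds
    exact cof_spec h1.2.1 (H.sec q (hNW hq)).2.1 h1.2.2.1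
  hol q hq := (H.frameAt hN hNW hl hT hq).1.cof_holAt (H.sec_ev (hNW hq))

/-- (R1), `m = 1` (CASE B): a frame on all of `W` -/
theorem RootData.exists_one (H : RootData L a α A B 1 W) :
    ∃ l : X → EuclideanSpace ℂ ι, RootFrame L a α A B 1 W l := by
  have hc := H.rootCov
  choose! l hl using fun q (hq : q ∈ W) => hc.exists_mem hq
  refine ⟨l, H.rootFrame H.open_W subset_rfl ?_ hl⟩
  intro q hq
  obtain ⟨U, g, hU, hqU, hg, h0, hT⟩ := hc q hq
  refine ((hg.continuousAt (hU.mem_nhds hqU)).congr ?_).continuousWithinAt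
  filter_upwards [hU.mem_nhds hqU, H.open_W.mem_nhds hq] with y hy hyW
  obtain ⟨ζ, hζ, h1⟩ := (hT y hy _).1 (hl y hyW)
  rw [pow_one] at hζ
  rw [h1, hζ, one_smul]

/-- (R2): closed set with a given root, and finitely many embedded projective lines each of which
meets the previous ones in at most one point -/
theorem RootData.exists_root [T2Space X] [NormalSpace X] (H : RootData L a α A B m W) {Y : Set X}
    (hY : IsClosed Y) (hYW : Y ⊆ W) {l₀ : X → EuclideanSpace ℂ ι} (hl₀ : ContinuousOn l₀ Y)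
    (hT₀ : ∀ q ∈ Y, Rt L a α A B m q (l₀ q)) (φ : ℕ → EmbP1 X) (n : ℕ)
    (hφW : ∀ j < n, (φ j).image ⊆ W)
    (hint : ∀ j < n, ((φ j).image ∩ (Y ∪ ⋃ i < j, (φ i).image)).Subsingleton) :
    ∃ (N : Set X) (l : X → EuclideanSpace ℂ ι), Y ⊆ N ∧ (∀ j < n, (φ j).image ⊆ N) ∧ N ⊆ W ∧
      RootFrame L a α A B m N l ∧ (∀ q ∈ N, Rt L a α A B m q (l q)) ∧ ∀ q ∈ Y, l q = l₀ q := by
  have hc := H.rootCov
  have hsp : ∀ j < n, IsClosed (φ j).image ∧ ∃ t : X → EuclideanSpace ℂ ι,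
      ContinuousOn t (φ j).image ∧ ∀ q ∈ (φ j).image, Rt L a α A B m q (t q) := by
    intro j hj
    obtain ⟨h1, t, ht, hT⟩ := hc.exists_p1 H.pos (φ j).holo₀.continuous (φ j).holo₁.continuous
      (φ j).glue (φ j).inj (φ j).ninf (fun z => hφW j hj ((φ j).mem_image_f₀ z))
      (fun z => hφW j hj ((φ j).mem_image_f₁ z))
    exact ⟨h1.isClosed, t, ht, hT⟩
  obtain ⟨t, ht, htT, htY⟩ := hc.exists_chain H.pos hY hYW hl₀ hT₀ (fun j => (φ j).image) n
    (fun j hj => (hsp j hj).1) hφW (fun j hj => (hsp j hj).2) hint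
  have hcl : IsClosed (Y ∪ ⋃ i < n, (φ i).image) :=
    hY.union ((Set.finite_lt_nat n).isClosed_biUnion fun i hi => (hsp i hi).1)
  have hsub : (Y ∪ ⋃ i < n, (φ i).image) ⊆ W :=
    union_subset hYW (iUnion₂_subset fun i hi => hφW i hi)
  obtain ⟨N, l, hN, hYN, hNW, hlc, hlT, hlY⟩ := hc.exists_nhd H.pos H.open_W hcl hsub ht htT
  refine ⟨N, l, subset_union_left.trans hYN, fun j hj => ?_, hNW, H.rootFrame hN hNW hlc hlT, hlT,
    fun q hq => ?_⟩
  · refine Subset.trans ?_ hYN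
    exact (subset_iUnion₂ (s := fun i (_ : i < n) => (φ i).image) j hj).trans subset_union_right
  · rw [hlY q (Or.inl hq), htY q hq]

end Vale.Agent.P267.H188
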